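import Mathlib

/-! # P097 / Theorem A: joint holomorphy of the leaves across the boundary (definitions, statements)

Owner of this file: helper900.  Paper proof: notes #1965 (helper900), #2311 (helper477),
#2268 (helper799).  Period of the Lazutkin coordinate normalised to `1`. -/

set_option linter.all false

open scoped ComplexConjugate Topology
open Filter

namespace Vale.Agent.P097.TA

/-! ## 1. Functions of the phase `x` and the rotation number `ε` -/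

/-- `f` is jointly holomorphic on the (open) set `S`. -/
def JD (f : ℂ → ℂ → ℂ) (S : Set (ℂ × ℂ)) : Prop :=
  DifferentiableOn ℂ (fun p : ℂ × ℂ => f p.1 p.2) S

/-- the domain `|ε| < e`, `|Im x| + a |Im ε| < r` -/
def WW (a r e : ℝ) : Set (ℂ × ℂ) := {p | ‖p.2‖ < e ∧ |p.1.im| + a * |p.2.im| < r}

/-- `1`-periodic in the phase, on `S` -/
def Per (f : ℂ → ℂ → ℂ) (S : Set (ℂ × ℂ)) : Prop :=
  ∀ x ε : ℂ, (x, ε) ∈ S → f (x + 1) ε = f x ε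

/-- `|f| ≤ M` on `S` -/
def Bd (f : ℂ → ℂ → ℂ) (M : ℝ) (S : Set (ℂ × ℂ)) : Prop :=
  ∀ x ε : ℂ, (x, ε) ∈ S → ‖f x ε‖ ≤ M

/-- centred difference -/
noncomputable def Dl (f : ℂ → ℂ → ℂ) (x ε : ℂ) : ℂ := f (x + ε / 2) ε - f (x - ε / 2) ε

/-- mean over the period (real phases) -/
noncomputable def mn (f : ℂ → ℂ → ℂ) (ε : ℂ) : ℂ := ∫ t in (0 : ℝ)..1, f t ε

/-- phase derivative -/
noncomputable def dx (f : ℂ → ℂ → ℂ) (x ε : ℂ) : ℂ := deriv (fun t => f t ε) x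

/-- derivative in the rotation number -/
noncomputable def de (f : ℂ → ℂ → ℂ) (x ε : ℂ) : ℂ := deriv (fun t => f x t) ε

/-- resonance condition of size `μ` for the rotation numbers `p / n`, `n ≤ K`, `0 < |p / n| < e` -/
def Res (f : ℂ → ℂ → ℂ) (r e : ℝ) (K : ℕ) (μ : ℝ) : Prop :=
  ∀ (n : ℕ) (p : ℤ), 1 ≤ n → n ≤ K → p ≠ 0 → |(p : ℝ) / n| < e → ∀ x : ℂ, |x.im| < r →
    ‖(∑ i ∈ Finset.range n, f (x + i * ((p : ℂ) / n)) ((p : ℂ) / n)) / n - mn f ((p : ℂ) / n)‖ ≤ μ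

/-! ## 2. The generating function -/

/-- `b` = the fifth order part of the generating function in the coordinates `m` (midpoint) and `d`
(difference) -/
structure Gen (ρ M : ℝ) (b : ℂ → ℂ → ℂ) : Prop where
  hρ : 0 < ρ
  hρ1 : ρ ≤ 1
  hM : 1 ≤ M
  hol : JD b {p | |p.1.im| < ρ ∧ ‖p.2‖ < ρ}
  bd : ∀ m d : ℂ, |m.im| < ρ → ‖d‖ < ρ → ‖b m d‖ ≤ M
  per : ∀ m d : ℂ, |m.im| < ρ → ‖d‖ < ρ → b (m + 1) d = b m d
  even : ∀ m d : ℂ, |m.im| < ρ → ‖d‖ < ρ → b m (-d) = b m d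
  real : ∀ m d : ℂ, |m.im| < ρ → ‖d‖ < ρ → b (conj m) (conj d) = conj (b m d)

/-- generating function: `(y - x)³ / 6 + (y - x)⁵ b(m, d)` -/
noncomputable def Fg (b : ℂ → ℂ → ℂ) (x y : ℂ) : ℂ :=
  (y - x) ^ 3 / 6 + (y - x) ^ 5 * b ((x + y) / 2) (y - x)

/-- `∂₁` -/
noncomputable def F1 (b : ℂ → ℂ → ℂ) (x y : ℂ) : ℂ := deriv (fun t => Fg b t y) x

/-- `∂₂` -/
noncomputable def F2 (b : ℂ → ℂ → ℂ) (x y : ℂ) : ℂ := deriv (fun t => Fg b x t) y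

/-- `∂₁ ∂₂` -/
noncomputable def F12 (b : ℂ → ℂ → ℂ) (x y : ℂ) : ℂ := deriv (fun t => F2 b t y) x

/-- Euler-Lagrange expression at `y` of the chain `x, y, z` -/
noncomputable def EL (b : ℂ → ℂ → ℂ) (x y z : ℂ) : ℂ := F2 b x y + F1 b y z

/-- real closed chains `(n, p)` through every point, with comparable gaps (rational leaves) -/
def Leaves (b : ℂ → ℂ → ℂ) (η CH : ℝ) : Prop :=
  ∀ n p : ℕ, 0 < n → 0 < p → (p : ℝ) / n < η → ∀ x : ℝ, ∃ y : ℤ → ℝ, y 0 = x ∧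
    (∀ i, y (i + n) = y i + p) ∧
    (∀ i, 0 < y (i + 1) - y i ∧ y (i + 1) - y i ≤ CH * ((p : ℝ) / n)) ∧
    ∀ i, EL b (y i) (y (i + 1)) (y (i + 2)) = 0

/-! ## 3. Approximate solutions -/

/-- Euler-Lagrange error of the family `θ` -/
noncomputable def Er (b θ : ℂ → ℂ → ℂ) (x ε : ℂ) : ℂ :=
  EL b (θ (x - ε) ε) (θ x ε) (θ (x + ε) ε)

/-- `θ_x · Er` -/
noncomputable def RR (b θ : ℂ → ℂ → ℂ) (x ε : ℂ) : ℂ := dx θ x ε * Er b θ x ε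

/-- the action density, centred at the midpoint -/
noncomputable def ff (b θ : ℂ → ℂ → ℂ) (m ε : ℂ) : ℂ :=
  Fg b (θ (m - ε / 2) ε) (θ (m + ε / 2) ε)

/-- the coefficient `c(m, ε) = - F₁₂ θ_x θ_x`, centred at the midpoint -/
noncomputable def cc (b θ : ℂ → ℂ → ℂ) (m ε : ℂ) : ℂ :=
  -F12 b (θ (m - ε / 2) ε) (θ (m + ε / 2) ε) * dx θ (m - ε / 2) ε * dx θ (m + ε / 2) ε

/-- the family of leaves: exact solution on `WW 0 r e` -/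
structure Fam (b : ℂ → ℂ → ℂ) (L r e : ℝ) (θ : ℂ → ℂ → ℂ) : Prop where
  hr : 0 < r
  he : 0 < e
  hol : JD θ (WW 0 r e)
  per : ∀ x ε : ℂ, (x, ε) ∈ WW 0 r e → θ (x + 1) ε = θ x ε + 1
  ev : ∀ x ε : ℂ, (x, ε) ∈ WW 0 r e → θ x (-ε) = θ x ε
  re : ∀ x ε : ℂ, (x, ε) ∈ WW 0 r e → θ (conj x) (conj ε) = conj (θ x ε)
  cl : ∀ x ε : ℂ, (x, ε) ∈ WW 0 r e → ‖θ x ε - x‖ ≤ L * ‖ε‖ ^ 2
  er : ∀ x ε : ℂ, (x, ε) ∈ WW 1 r e → Er b θ x ε = 0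

/-! ## 4. Packages -/

/-- [THMA-L1] a priori bound of the division (no resonance hypothesis, `g` is given) -/
def L1 : Prop := ∃ (A : ℕ) (C : ℝ), 1 ≤ C ∧
  ∀ (a r e r' e' μ : ℝ) (g : ℂ → ℂ → ℂ), (a = 0 ∨ a = 1 / 2) →
    0 < r' → r' < r → r ≤ 1 → 0 < e' → e' < e → e ≤ r' → 0 ≤ μ →
    JD g (WW a r e) → Per g (WW a r e) → Bd (Dl g) μ (WW (a + 1 / 2) r e) →
    Bd (fun x ε => g x ε - mn g ε) (C / (e * ((r - r') * (e - e')) ^ A) * μ) (WW a r' e')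

/-- [THMA-L2] division with interpolation at the resonances `j / k` -/
def L2 : Prop := ∃ (A : ℕ) (C : ℝ), 1 ≤ C ∧
  ∀ (r e r' e' M μ : ℝ) (K : ℕ) (f : ℂ → ℂ → ℂ), 1 ≤ K →
    0 < r' → r' < r → r ≤ 1 → 0 < e' → e' < e → e ≤ r' → 0 ≤ M → 0 ≤ μ →
    JD f (WW (1 / 2) r e) → Per f (WW (1 / 2) r e) → (∀ x : ℂ, |x.im| < r → f x 0 = 0) →
    Bd (fun x ε => f x ε - mn f ε) M (WW (1 / 2) r e) → Res f r e K μ →
    ∃ S : ℂ → ℂ → ℂ, JD S {p | ‖p.2‖ < e'} ∧ (∀ x ε, S (x + 1) ε = S x ε) ∧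
      (∀ ε, ‖ε‖ < e' → mn S ε = 0) ∧
      Bd (fun x ε => f x ε - mn f ε - Dl S x ε)
        (C / ((r - r') * (e - e')) ^ A * (K ^ A * μ + M * Real.exp (-(2 * Real.pi * K * (r - r')))))
        (WW (1 / 2) r' e') ∧
      ((∀ x ε : ℂ, (x, ε) ∈ WW (1 / 2) r e → f x (-ε) = -f x ε) → ∀ x ε, S x (-ε) = S x ε) ∧
      ((∀ x ε : ℂ, (x, ε) ∈ WW (1 / 2) r e → f (conj x) (conj ε) = conj (f x ε)) →
        ∀ x ε, S (conj x) (conj ε) = conj (S x ε))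

end Vale.Agent.P097.TA
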